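import Vale.Agent.Lib.P070.Interface
import Vale.Agent.Lib.P070.P.UN

/-! # P070 part U: the unitary `u = ∑ v_k t_k^*` -/

open Filter Topology

namespace P070

namespace U

open P070.P

section alg

variable {B : Type} [CStarAlgebra B]

theorem star_uN (t v : Germ B) (N : ℕ) : star (uN t v N) = uN v t N := by
  unfold uN
  rw [star_sum]
  refine Finset.sum_congr rfl fun k _ => ?_
  rw [star_mul, star_star]

theorem uN_mul_t (t v : Germ B) {k N : ℕ} (h : k < N) : uN t v N * t.t k = v.t k := by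
  unfold uN
  rw [Finset.sum_mul, Finset.sum_eq_single k]
  · rw [mul_assoc, t.orth, if_pos rfl, mul_one]
  · intro j _ hj
    rw [mul_assoc, t.orth, if_neg hj, mul_zero]
  · intro hk
    exact absurd (Finset.mem_range.2 h) hk

theorem star_uN_mul (t v : Germ B) (N : ℕ) : star (uN t v N) * uN t v N = 1 - t.p N := by
  rw [star_uN]
  have h1 : uN v t N = ∑ k ∈ Finset.range N, t.t k * star (v.t k) := rfl
  rw [h1, Finset.sum_mul]
  unfold Germ.p
  rw [sub_sub_cancel]
  refine Finset.sum_congr rfl fun k hk => ?_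
  have h2 : star (v.t k) * uN t v N = star (t.t k) := by
    have h3 := congrArg star (uN_mul_t v t (Finset.mem_range.1 hk))
    rw [star_mul, star_uN] at h3
    exact h3
  rw [mul_assoc, h2]

theorem norm_one_sub_p_le (t : Germ B) (N : ℕ) : ‖1 - t.p N‖ ≤ 1 := by
  have h2 : star (1 - t.p N) * (1 - t.p N) = 1 - t.p N := by
    rw [star_sub, star_one, Germ.star_p, sub_mul, mul_sub, mul_sub, one_mul, mul_one, one_mul,
      Germ.p_mul_p_of_le t le_rfl]
    abel
  have h3 := CStarRing.norm_star_mul_self (x := 1 - t.p N)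
  rw [h2] at h3
  by_contra hcon
  push Not at hcon
  nlinarith

theorem norm_uN_le' (t v : Germ B) (N : ℕ) : ‖uN t v N‖ ≤ 1 := by
  have h3 := CStarRing.norm_star_mul_self (x := uN t v N)
  rw [star_uN_mul] at h3
  have := norm_one_sub_p_le t N
  by_contra hcon
  push Not at hcon
  nlinarith

/-- `u_M - u_N = u_M p_N` for `N ≤ M` -/
theorem uN_sub (t v : Germ B) {N M : ℕ} (h : N ≤ M) : uN t v M - uN t v N = uN t v M * t.p N := by
  conv_rhs => unfold Germ.p
  rw [mul_sub, mul_one, Finset.mul_sum]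
  congr 1
  unfold uN
  refine Finset.sum_congr rfl fun k hk => ?_
  have hk' : k < M := lt_of_lt_of_le (Finset.mem_range.1 hk) h
  have h1 := uN_mul_t t v hk'
  unfold uN at h1
  rw [← mul_assoc, h1]

end alg

section hilb

variable {H : Type} [NormedAddCommGroup H] [InnerProductSpace ℂ H] [CompleteSpace H]

theorem exists_limit (t v : Germ (H →L[ℂ] H)) (ht : ∀ κ : H, Tendsto (fun n => t.p n κ) atTop (𝓝 0)) :
    ∃ w : H →L[ℂ] H, ∀ ξ : H, Tendsto (fun N => uN t v N ξ) atTop (𝓝 (w ξ)) := by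
  have hc : ∀ ξ : H, CauchySeq (fun N => uN t v N ξ) := by
    intro ξ
    rw [Metric.cauchySeq_iff']
    intro ε hε
    obtain ⟨N, hN⟩ := (Metric.tendsto_atTop.1 (ht ξ)) ε hε
    refine ⟨N, fun M hM => ?_⟩
    rw [dist_eq_norm]
    have h1 : uN t v M ξ - uN t v N ξ = uN t v M (t.p N ξ) := by
      have := congrArg (fun A : H →L[ℂ] H => A ξ) (uN_sub t v hM)
      simpa using this
    rw [h1]
    have h2 := hN N le_rfl
    rw [dist_zero_right] at h2
    refine lt_of_le_of_lt ?_ h2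
    calc ‖uN t v M (t.p N ξ)‖ ≤ ‖uN t v M‖ * ‖t.p N ξ‖ := ContinuousLinearMap.le_opNorm _ _
      _ ≤ 1 * ‖t.p N ξ‖ := mul_le_mul_of_nonneg_right (norm_uN_le' t v M) (norm_nonneg _)
      _ = ‖t.p N ξ‖ := one_mul _
  choose f hf using fun ξ => cauchySeq_tendsto_of_complete (hc ξ)
  refine ⟨continuousLinearMapOfTendsto (fun N => uN t v N) (f := f) (tendsto_pi_nhds.2 hf), ?_⟩
  intro ξ
  exact hf ξ

theorem inner_lim {a b : ℕ → H →L[ℂ] H} {a' b' : H →L[ℂ] H} {ξ ζ : H}
    (ha : Tendsto (fun N => a N ξ) atTop (𝓝 (a' ξ))) (hb : Tendsto (fun N => b N ζ) atTop (𝓝 (b' ζ))) :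
    Tendsto (fun N => (inner ℂ (a N ξ) (b N ζ) : ℂ)) atTop (𝓝 (inner ℂ (a' ξ) (b' ζ))) :=
  ha.inner hb

theorem star_mul_self_of_lim (t v : Germ (H →L[ℂ] H))
    (ht : ∀ κ : H, Tendsto (fun n => t.p n κ) atTop (𝓝 0)) {w : H →L[ℂ] H}
    (hw : ∀ ξ : H, Tendsto (fun N => uN t v N ξ) atTop (𝓝 (w ξ))) : star w * w = 1 := by
  ext ζ
  refine ext_inner_left ℂ fun ξ => ?_
  rw [ContinuousLinearMap.mul_apply, ContinuousLinearMap.star_eq_adjoint,
    ContinuousLinearMap.adjoint_inner_right, ContinuousLinearMap.one_apply]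
  have h1 : Tendsto (fun N => (inner ℂ (uN t v N ξ) (uN t v N ζ) : ℂ)) atTop
      (𝓝 (inner ℂ (w ξ) (w ζ))) := (hw ξ).inner (hw ζ)
  have h2 : ∀ N, (inner ℂ (uN t v N ξ) (uN t v N ζ) : ℂ) = inner ℂ ξ (ζ - t.p N ζ) := by
    intro N
    have h3 : (star (uN t v N) * uN t v N) ζ = ζ - t.p N ζ := by
      rw [star_uN_mul]
      simp
    rw [← h3, ContinuousLinearMap.mul_apply, ContinuousLinearMap.star_eq_adjoint,
      ContinuousLinearMap.adjoint_inner_right]
  have h4 : Tendsto (fun N => (inner ℂ ξ (ζ - t.p N ζ) : ℂ)) atTop (𝓝 (inner ℂ ξ (ζ - 0))) :=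
    tendsto_const_nhds.inner (tendsto_const_nhds.sub (ht ζ))
  rw [sub_zero] at h4
  simp_rw [h2] at h1
  exact tendsto_nhds_unique h1 h4

theorem star_of_lim (t v : Germ (H →L[ℂ] H)) {w w' : H →L[ℂ] H}
    (hw : ∀ ξ : H, Tendsto (fun N => uN t v N ξ) atTop (𝓝 (w ξ)))
    (hw' : ∀ ξ : H, Tendsto (fun N => uN v t N ξ) atTop (𝓝 (w' ξ))) : w' = star w := by
  ext ζ
  refine ext_inner_left ℂ fun ξ => ?_
  rw [ContinuousLinearMap.star_eq_adjoint, ContinuousLinearMap.adjoint_inner_right]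
  have h1 : Tendsto (fun N => (inner ℂ ξ (uN v t N ζ) : ℂ)) atTop (𝓝 (inner ℂ ξ (w' ζ))) :=
    tendsto_const_nhds.inner (hw' ζ)
  have h2 : Tendsto (fun N => (inner ℂ (uN t v N ξ) ζ : ℂ)) atTop (𝓝 (inner ℂ (w ξ) ζ)) :=
    (hw ξ).inner tendsto_const_nhds
  have h3 : ∀ N, (inner ℂ ξ (uN v t N ζ) : ℂ) = inner ℂ (uN t v N ξ) ζ := by
    intro N
    rw [← star_uN t v N, ContinuousLinearMap.star_eq_adjoint,
      ContinuousLinearMap.adjoint_inner_right]
  simp_rw [h3] at h1
  exact tendsto_nhds_unique h1 h2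

end hilb

end U

open P070.P U in
theorem partU : PartU := by
  intro H _ _ _ T t v hT hTt hTv ht hv
  obtain ⟨w, hw⟩ := exists_limit t v ht
  obtain ⟨w', hw'⟩ := exists_limit v t hv
  have e1 : w' = star w := star_of_lim t v hw hw'
  have h1 : star w * w = 1 := star_mul_self_of_lim t v ht hw
  have h2 : star w' * w' = 1 := star_mul_self_of_lim v t hv hw'
  rw [e1, star_star] at h2
  refine ⟨w, ?_, ?_, ?_⟩
  · rw [Unitary.mem_iff]
    exact ⟨h1, h2⟩
  · intro k
    ext ξ
    rw [ContinuousLinearMap.mul_apply]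
    refine tendsto_nhds_unique (hw (t.t k ξ)) ?_
    refine tendsto_const_nhds.congr' ?_
    filter_upwards [eventually_gt_atTop k] with N hN
    have := congrArg (fun A : H →L[ℂ] H => A ξ) (uN_mul_t t v hN)
    simpa using this.symm
  · have hTs : ∀ k, T * star (t.t k) = star (t.t k) * T := by
      intro k
      have h3 := congrArg star (hTt k)
      rw [star_mul, star_mul] at h3
      -- star (t k) * star T = star T * star (t k)
      calc T * star (t.t k) = T * (star (t.t k) * star T) * T := by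
            rw [mul_assoc, mul_assoc, Unitary.star_mul_self_of_mem hT, mul_one]
        _ = T * (star T * star (t.t k)) * T := by rw [h3]
        _ = star (t.t k) * T := by
            rw [← mul_assoc, Unitary.mul_star_self_of_mem hT, one_mul]
    have hTN : ∀ N, T * uN t v N = uN t v N * T := by
      intro N
      unfold uN
      rw [Finset.mul_sum, Finset.sum_mul]
      refine Finset.sum_congr rfl fun k _ => ?_
      rw [← mul_assoc, hTv k, mul_assoc, hTs k, mul_assoc]
    ext ξ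
    rw [ContinuousLinearMap.mul_apply, ContinuousLinearMap.mul_apply]
    have h3 : Tendsto (fun N => T (uN t v N ξ)) atTop (𝓝 (T (w ξ))) :=
      (T.continuous.tendsto _).comp (hw ξ)
    refine tendsto_nhds_unique h3 ?_
    have h4 : ∀ N, T (uN t v N ξ) = uN t v N (T ξ) := by
      intro N
      have := congrArg (fun A : H →L[ℂ] H => A ξ) (hTN N)
      simpa using this
    simp_rw [h4]
    exact hw (T ξ)

end P070
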